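import Vale.Agent.P122.H404.OrtA
import Vale.Agent.P122.AN.Defs

/-! # `StORT` : orthogonality up to overlaps on a box (helper404) -/

open MeasureTheory Complex Set
open scoped ENNReal NNReal ContDiff FourierTransform

set_option linter.all false

namespace Vale.Agent.P122.H404

open Vale.Agent.P117 (E3)
open Vale.Agent.P106.Tri (ec inv_eq)
open Vale.Agent.P106.G (mat3 mat3_apply mat3_det mat3_cont mat3_emb integral_mat3 lintegral_mat3 integrable_mat3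
  inner3 mat3_inv_left mat3_inv_right)
open Vale.Agent.P122.C2 (fw fn)
open Vale.Agent.P122.AN (hz dv gau Dual StORT)

/-- physical coordinates of the box -/
noncomputable def Ax (θ ρ1 ρ2 ρ3 : ℝ) (s : Fin 2 → ℝ) : Matrix (Fin 3) (Fin 3) ℝ :=
  !![Real.cos θ / ρ1, Real.sin θ / ρ1, -(Real.cos θ * s 0 + Real.sin θ * s 1) / ρ1;
     -Real.sin θ / ρ2, Real.cos θ / ρ2, (Real.sin θ * s 0 - Real.cos θ * s 1) / ρ2;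
     0, 0, 1 / ρ3]

/-- dual coordinates of the box -/
noncomputable def Ex (θ ρ1 ρ2 ρ3 : ℝ) (s : Fin 2 → ℝ) : Matrix (Fin 3) (Fin 3) ℝ :=
  !![ρ1 * Real.cos θ, ρ1 * Real.sin θ, 0;
     -(ρ2 * Real.sin θ), ρ2 * Real.cos θ, 0;
     ρ3 * s 0, ρ3 * s 1, ρ3]

variable {θ ρ1 ρ2 ρ3 : ℝ} {s : Fin 2 → ℝ}

theorem Ax_det (h1 : 0 < ρ1) (h2 : 0 < ρ2) (h3 : 0 < ρ3) : (Ax θ ρ1 ρ2 ρ3 s).det = (ρ1 * ρ2 * ρ3)⁻¹ := by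
  unfold Ax
  rw [Matrix.det_fin_three]
  have hcs := Real.cos_sq_add_sin_sq θ
  simp only [Matrix.of_apply, Matrix.cons_val', Matrix.cons_val_zero, Matrix.cons_val_one, Matrix.cons_val,
    Matrix.empty_val', Matrix.cons_val_fin_one]
  field_simp
  linarith

theorem Ex_det : (Ex θ ρ1 ρ2 ρ3 s).det = ρ1 * ρ2 * ρ3 := by
  unfold Ex
  rw [Matrix.det_fin_three]
  have hcs := Real.cos_sq_add_sin_sq θ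
  simp only [Matrix.of_apply, Matrix.cons_val', Matrix.cons_val_zero, Matrix.cons_val_one, Matrix.cons_val,
    Matrix.empty_val', Matrix.cons_val_fin_one]
  have : ρ1 * ρ2 * ρ3 = ρ1 * ρ2 * ρ3 * (Real.cos θ ^ 2 + Real.sin θ ^ 2) := by rw [hcs, mul_one]
  rw [this]
  ring

theorem Ax_0 (z : E3) : mat3 (Ax θ ρ1 ρ2 ρ3 s) z 0 = fw θ (dv s z) / ρ1 := by
  rw [mat3_apply]
  unfold Ax fw dv
  simp
  ring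

theorem Ax_1 (z : E3) : mat3 (Ax θ ρ1 ρ2 ρ3 s) z 1 = fn θ (dv s z) / ρ2 := by
  rw [mat3_apply]
  unfold Ax fn dv
  simp
  ring

theorem Ax_2 (z : E3) : mat3 (Ax θ ρ1 ρ2 ρ3 s) z 2 = z 2 / ρ3 := by
  rw [mat3_apply]
  unfold Ax
  simp
  ring

theorem Ex_0 (z : E3) : mat3 (Ex θ ρ1 ρ2 ρ3 s) z 0 = ρ1 * fw θ (hz z) := by
  rw [mat3_apply]
  unfold Ex fw hz
  simp
  ring

theorem Ex_1 (z : E3) : mat3 (Ex θ ρ1 ρ2 ρ3 s) z 1 = ρ2 * fn θ (hz z) := by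
  rw [mat3_apply]
  unfold Ex fn hz
  simp
  ring

theorem Ex_2 (z : E3) : mat3 (Ex θ ρ1 ρ2 ρ3 s) z 2 = ρ3 * (z 2 + s 0 * z 0 + s 1 * z 1) := by
  rw [mat3_apply]
  unfold Ex
  simp
  ring

theorem inner_Ex_Ax (h1 : 0 < ρ1) (h2 : 0 < ρ2) (h3 : 0 < ρ3) (ξ z : E3) :
    inner ℝ (mat3 (Ex θ ρ1 ρ2 ρ3 s) ξ) (mat3 (Ax θ ρ1 ρ2 ρ3 s) z) = (inner ℝ ξ z : ℝ) := by
  rw [inner3, inner3, Ax_0, Ax_1, Ax_2, Ex_0, Ex_1, Ex_2]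
  unfold fw fn hz dv
  simp only [Matrix.cons_val_zero, Matrix.cons_val_one, Matrix.cons_val_fin_one]
  have hcs := Real.cos_sq_add_sin_sq θ
  field_simp
  have e : Real.sin θ ^ 2 = 1 - Real.cos θ ^ 2 := by linarith
  ring_nf
  simp only [e]
  ring

theorem gau_eq (h1 : 0 < ρ1) (h2 : 0 < ρ2) (h3 : 0 < ρ3) (z : E3) :
    gau θ ρ1 ρ2 ρ3 s z = n1 (mat3 (Ax θ ρ1 ρ2 ρ3 s) z) := by
  unfold gau n1
  rw [Ax_0, Ax_1, Ax_2, abs_div, abs_div, abs_div, abs_of_pos h1, abs_of_pos h2, abs_of_pos h3]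

theorem wg_eq (M : ℕ) (h1 : 0 < ρ1) (h2 : 0 < ρ2) (h3 : 0 < ρ3) (z : E3) :
    AN.wg M θ ρ1 ρ2 ρ3 s z = w1 M (mat3 (Ax θ ρ1 ρ2 ρ3 s) z) := by
  unfold AN.wg w1
  rw [gau_eq h1 h2 h3]

theorem dual_of (h1 : 0 < ρ1) (h2 : 0 < ρ2) (h3 : 0 < ρ3) {ξ : E3} (h : ‖mat3 (Ex θ ρ1 ρ2 ρ3 s) ξ‖ ≤ 1) :
    Dual 1 θ ρ1 ρ2 ρ3 s ξ := by
  have a0 := (coord_le (mat3 (Ex θ ρ1 ρ2 ρ3 s) ξ) 0).trans h
  have a1 := (coord_le (mat3 (Ex θ ρ1 ρ2 ρ3 s) ξ) 1).trans h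
  have a2 := (coord_le (mat3 (Ex θ ρ1 ρ2 ρ3 s) ξ) 2).trans h
  rw [Ex_0, abs_mul, abs_of_pos h1] at a0
  rw [Ex_1, abs_mul, abs_of_pos h2] at a1
  rw [Ex_2, abs_mul, abs_of_pos h3] at a2
  refine ⟨?_, ?_, ?_⟩
  · rw [le_div_iff₀ h1]; linarith
  · rw [le_div_iff₀ h2]; linarith
  · rw [le_div_iff₀ h3]; linarith

/-- the transported function -/
noncomputable def tr (θ ρ1 ρ2 ρ3 : ℝ) (s : Fin 2 → ℝ) (g : E3 → ℂ) (d : E3) : ℂ :=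
  g (mat3 (Ex θ ρ1 ρ2 ρ3 s)⁻¹ d)

theorem Ex_det_ne (h1 : 0 < ρ1) (h2 : 0 < ρ2) (h3 : 0 < ρ3) : (Ex θ ρ1 ρ2 ρ3 s).det ≠ 0 := by
  rw [Ex_det]; positivity

theorem Ax_det_ne (h1 : 0 < ρ1) (h2 : 0 < ρ2) (h3 : 0 < ρ3) : (Ax θ ρ1 ρ2 ρ3 s).det ≠ 0 := by
  rw [Ax_det h1 h2 h3]; positivity

theorem Exi_det_ne (h1 : 0 < ρ1) (h2 : 0 < ρ2) (h3 : 0 < ρ3) : ((Ex θ ρ1 ρ2 ρ3 s)⁻¹).det ≠ 0 := by
  rw [Matrix.det_nonsing_inv, Ring.inverse_eq_inv']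
  exact inv_ne_zero (Ex_det_ne h1 h2 h3)

theorem integrable_tr (h1 : 0 < ρ1) (h2 : 0 < ρ2) (h3 : 0 < ρ3) {g : E3 → ℂ} (hg : Integrable g) :
    Integrable (tr θ ρ1 ρ2 ρ3 s g) := integrable_mat3 (Exi_det_ne h1 h2 h3) hg

theorem inv_tr (h1 : 0 < ρ1) (h2 : 0 < ρ2) (h3 : 0 < ρ3) (g : E3 → ℂ) (z : E3) :
    𝓕⁻ (tr θ ρ1 ρ2 ρ3 s g) (mat3 (Ax θ ρ1 ρ2 ρ3 s) z) = ((ρ1 * ρ2 * ρ3 : ℝ) : ℂ) * 𝓕⁻ g z := by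
  have h := integral_mat3 (Exi_det_ne (θ := θ) (s := s) h1 h2 h3) (fun ξ : E3 => ec (inner ℝ ξ z) * g ξ)
  rw [inv_eq, inv_eq]
  have e : ∀ v : E3, ec (inner ℝ v (mat3 (Ax θ ρ1 ρ2 ρ3 s) z)) * tr θ ρ1 ρ2 ρ3 s g v =
      ec (inner ℝ (mat3 (Ex θ ρ1 ρ2 ρ3 s)⁻¹ v) z) * g (mat3 (Ex θ ρ1 ρ2 ρ3 s)⁻¹ v) := by
    intro v
    unfold tr
    congr 2
    rw [← inner_Ex_Ax (θ := θ) (s := s) h1 h2 h3 (mat3 (Ex θ ρ1 ρ2 ρ3 s)⁻¹ v) z, mat3_inv_right (Ex_det_ne h1 h2 h3)]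
  simp_rw [e]
  rw [h, Matrix.det_nonsing_inv, Ring.inverse_eq_inv', inv_inv, Ex_det, abs_of_pos (by positivity), Complex.real_smul]

/-- **`StORT`** -/
theorem stORT : StORT := by
  intro M
  obtain ⟨C, hC, h⟩ := ort1 M
  refine ⟨C, hC, ?_⟩
  intro ι I g θ ρ1 ρ2 ρ3 s m h1 h2 h3 hg hm z0
  have key := h ι I (fun k => tr θ ρ1 ρ2 ρ3 s (g k)) m (fun k hk => integrable_tr h1 h2 h3 (hg k hk)) ?_
    (mat3 (Ax θ ρ1 ρ2 ρ3 s) z0)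
  · have hd := Ax_det_ne (θ := θ) (s := s) h1 h2 h3
    set D : ℝ≥0∞ := ENNReal.ofReal |(Ax θ ρ1 ρ2 ρ3 s).det⁻¹| with hD
    have hD0 : D ≠ 0 := by
      rw [hD, ne_eq, ENNReal.ofReal_eq_zero, not_le]
      exact abs_pos.2 (inv_ne_zero hd)
    have hDt : D ≠ ⊤ := ENNReal.ofReal_ne_top
    set B : ℝ≥0∞ := ENNReal.ofReal (ρ1 * ρ2 * ρ3) ^ 2 with hB
    have hBt : B ≠ ⊤ := ENNReal.pow_ne_top ENNReal.ofReal_ne_top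
    have hB0 : B ≠ 0 := by
      rw [hB]
      apply pow_ne_zero
      rw [ne_eq, ENNReal.ofReal_eq_zero, not_le]
      positivity
    -- transport of the integrals
    have tp : ∀ (F G : E3 → ℂ), (∀ z, F (mat3 (Ax θ ρ1 ρ2 ρ3 s) z) = ((ρ1 * ρ2 * ρ3 : ℝ) : ℂ) * G z) →
        D * ∫⁻ u, ‖F u‖ₑ ^ 2 * w1 M (u - mat3 (Ax θ ρ1 ρ2 ρ3 s) z0) =
          B * ∫⁻ z, ‖G z‖ₑ ^ 2 * AN.wg M θ ρ1 ρ2 ρ3 s (z - z0) := by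
      intro F G hFG
      rw [← lintegral_mat3 hd (fun u => ‖F u‖ₑ ^ 2 * w1 M (u - mat3 (Ax θ ρ1 ρ2 ρ3 s) z0)),
        ← lintegral_const_mul' _ _ hBt]
      refine lintegral_congr fun z => ?_
      rw [hFG, ← map_sub, ← wg_eq M h1 h2 h3, enorm_mul, mul_pow, hB, mul_assoc]
      congr 2
      rw [← ofReal_norm, Complex.norm_real, Real.norm_of_nonneg (by positivity)]
    have e1 := tp (fun u => ∑ k ∈ I, 𝓕⁻ (tr θ ρ1 ρ2 ρ3 s (g k)) u) (fun z => ∑ k ∈ I, 𝓕⁻ (g k) z) (by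
      intro z
      rw [Finset.mul_sum]
      exact Finset.sum_congr rfl fun k _ => inv_tr h1 h2 h3 (g k) z)
    have e2 : ∀ k, D * ∫⁻ u, ‖𝓕⁻ (tr θ ρ1 ρ2 ρ3 s (g k)) u‖ₑ ^ 2 * w1 M (u - mat3 (Ax θ ρ1 ρ2 ρ3 s) z0) =
        B * ∫⁻ z, ‖𝓕⁻ (g k) z‖ₑ ^ 2 * AN.wg M θ ρ1 ρ2 ρ3 s (z - z0) := fun k =>
      tp _ _ (fun z => inv_tr h1 h2 h3 (g k) z)
    have e3 := mul_le_mul' (le_refl D) key
    rw [e1, mul_left_comm, Finset.mul_sum] at e3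
    simp_rw [e2] at e3
    rw [← Finset.mul_sum, mul_left_comm] at e3
    exact (ENNReal.mul_le_mul_iff_right hB0 hBt).1 e3
  · intro k hk J hJ hJ2
    apply hm k hk J hJ
    intro l hl
    obtain ⟨ξ, η, a1, a2, a3⟩ := hJ2 l hl
    refine ⟨mat3 (Ex θ ρ1 ρ2 ρ3 s)⁻¹ ξ, mat3 (Ex θ ρ1 ρ2 ρ3 s)⁻¹ η, a1, a2, ?_⟩
    apply dual_of h1 h2 h3
    rw [← map_sub, mat3_inv_right (Ex_det_ne h1 h2 h3)]
    exact a3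

end Vale.Agent.P122.H404
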