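import Vale.Agent.P117.KC.LO3
import Vale.Agent.P106.G.Resc

/-! # Orthogonality with a weight on the unit box (helper404) -/

open MeasureTheory Complex Set
open scoped ENNReal NNReal ContDiff FourierTransform

set_option linter.all false

namespace Vale.Agent.P122.H404

open Vale.Agent.P117 (E3)
open Vale.Agent.P106
open Vale.Agent.P106.Tri
open Vale.Agent.P117.KC (continuous_inv norm_inv_le continuous_ga integrable_ga integrable_inv_ga plancherel_inv wt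
  lint_wt measurable_wt r0 r0_pos r0_le r0_spec)

/-- `ℓ¹` norm -/
noncomputable def n1 (u : E3) : ℝ := |u 0| + |u 1| + |u 2|

theorem n1_nonneg (u : E3) : 0 ≤ n1 u := by unfold n1; positivity

theorem n1_add (u v : E3) : n1 (u + v) ≤ n1 u + n1 v := by
  unfold n1
  simp only [PiLp.add_apply]
  have := abs_add_le (u 0) (v 0)
  have := abs_add_le (u 1) (v 1)
  have := abs_add_le (u 2) (v 2)
  linarith

theorem n1_neg (u : E3) : n1 (-u) = n1 u := by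
  unfold n1
  simp only [PiLp.neg_apply, abs_neg]

theorem coord_le (u : E3) (i : Fin 3) : |u i| ≤ ‖u‖ := by
  have := PiLp.norm_apply_le u i
  rwa [Real.norm_eq_abs] at this

theorem n1_le (u : E3) : n1 u ≤ 3 * ‖u‖ := by
  unfold n1
  have := coord_le u 0
  have := coord_le u 1
  have := coord_le u 2
  linarith

theorem continuous_n1 : Continuous n1 := by
  unfold n1
  fun_prop

/-- weight of the unit box -/
noncomputable def w1 (M : ℕ) (u : E3) : ℝ≥0∞ := ENNReal.ofReal (((1 + n1 u) ^ M)⁻¹)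

theorem measurable_w1 (M : ℕ) : Measurable (w1 M) := by
  unfold w1
  have := continuous_n1.measurable
  fun_prop

/-- `1 + |a+b| ≤ (1+|a|)(1+|b|)` -/
theorem one_n1_add (a b : E3) : 1 + n1 (a + b) ≤ (1 + n1 a) * (1 + n1 b) := by
  have h1 := n1_add a b
  have h2 := n1_nonneg a
  have h3 := n1_nonneg b
  nlinarith [mul_nonneg h2 h3]

/-- the averaged window -/
noncomputable def Wn (M : ℕ) (y0 z : E3) : ℝ≥0∞ := ∫⁻ y, ‖Tri.Psi ((1/2 : ℝ) • (z - y))‖ₑ ^ 2 * w1 M (y - y0)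

theorem Wn_low (M : ℕ) : ∃ c : ℝ, 0 < c ∧ ∀ y0 z : E3, w1 M (z - y0) ≤ ENNReal.ofReal c * Wn M y0 z := by
  set V : ℝ≥0∞ := volume (Metric.closedBall (0 : E3) r0) with hV
  have hV0 : V ≠ 0 := (Metric.measure_closedBall_pos volume _ r0_pos).ne'
  have hVt : V ≠ ⊤ := measure_closedBall_lt_top.ne
  refine ⟨4 * 4 ^ M * (V.toReal)⁻¹, by have := ENNReal.toReal_pos hV0 hVt; positivity, fun y0 z => ?_⟩
  have hball : volume (Metric.closedBall z r0) = V := by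
    rw [hV, Measure.addHaar_closedBall_center]
  have hc : ∀ y ∈ Metric.closedBall z r0, ENNReal.ofReal ((4 * 4 ^ M)⁻¹) * w1 M (z - y0) ≤
      ‖Tri.Psi ((1/2 : ℝ) • (z - y))‖ₑ ^ 2 * w1 M (y - y0) := by
    intro y hy
    have hy' : ‖z - y‖ ≤ r0 := by
      rw [Metric.mem_closedBall, dist_eq_norm] at hy
      rw [← norm_neg, neg_sub]; exact hy
    have h1 : 1/2 ≤ ‖Tri.Psi ((1/2 : ℝ) • (z - y))‖ := by
      apply r0_spec
      rw [norm_smul, Real.norm_of_nonneg (by norm_num)]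
      have := norm_nonneg (z - y)
      linarith
    have h2 : ENNReal.ofReal (4⁻¹) ≤ ‖Tri.Psi ((1/2 : ℝ) • (z - y))‖ₑ ^ 2 := by
      rw [← ofReal_norm, ← ENNReal.ofReal_pow (norm_nonneg _)]
      apply ENNReal.ofReal_le_ofReal
      calc (4:ℝ)⁻¹ = (1/2) ^ 2 := by norm_num
        _ ≤ _ := by gcongr
    have h3 : ENNReal.ofReal ((4 ^ M)⁻¹) * w1 M (z - y0) ≤ w1 M (y - y0) := by
      unfold w1
      rw [← ENNReal.ofReal_mul (by positivity)]
      apply ENNReal.ofReal_le_ofReal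
      rw [← mul_inv, ← mul_pow]
      have e : y - y0 = (z - y0) + (-(z - y)) := by abel
      have h4 := one_n1_add (z - y0) (-(z - y))
      rw [← e, n1_neg] at h4
      have h5 := n1_le (z - y)
      have h6 := r0_le
      have h7 := n1_nonneg (z - y0)
      have h8 := n1_nonneg (y - y0)
      have h9 : 1 + n1 (y - y0) ≤ 4 * (1 + n1 (z - y0)) := by
        have : 1 + n1 (z - y) ≤ 4 := by linarith
        nlinarith
      gcongr
    calc ENNReal.ofReal ((4 * 4 ^ M)⁻¹) * w1 M (z - y0)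
        = ENNReal.ofReal (4⁻¹) * (ENNReal.ofReal ((4 ^ M)⁻¹) * w1 M (z - y0)) := by
          rw [← mul_assoc, ← ENNReal.ofReal_mul (by positivity), ← mul_inv]
      _ ≤ _ := mul_le_mul' h2 h3
  have h10 : ENNReal.ofReal ((4 * 4 ^ M)⁻¹) * w1 M (z - y0) * V ≤ Wn M y0 z := by
    calc _ = ∫⁻ y in Metric.closedBall z r0, ENNReal.ofReal ((4 * 4 ^ M)⁻¹) * w1 M (z - y0) := by
          rw [setLIntegral_const, hball]
      _ ≤ ∫⁻ y in Metric.closedBall z r0, ‖Tri.Psi ((1/2 : ℝ) • (z - y))‖ₑ ^ 2 * w1 M (y - y0) :=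
          setLIntegral_mono' measurableSet_closedBall hc
      _ ≤ _ := setLIntegral_le_lintegral _ _
  calc w1 M (z - y0) = ENNReal.ofReal (4 * 4 ^ M * (V.toReal)⁻¹) *
      (ENNReal.ofReal ((4 * 4 ^ M)⁻¹) * w1 M (z - y0) * V) := by
        have hVp := ENNReal.toReal_pos hV0 hVt
        have e1 : V = ENNReal.ofReal V.toReal := (ENNReal.ofReal_toReal hVt).symm
        have e2 : ENNReal.ofReal (4 * 4 ^ M * (V.toReal)⁻¹) * (ENNReal.ofReal ((4 * 4 ^ M)⁻¹) * ENNReal.ofReal V.toReal) = 1 := by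
          rw [← ENNReal.ofReal_mul (by positivity), ← ENNReal.ofReal_mul (by positivity), ← ENNReal.ofReal_one]
          congr 1
          field_simp
        calc w1 M (z - y0) = 1 * w1 M (z - y0) := (one_mul _).symm
          _ = ENNReal.ofReal (4 * 4 ^ M * (V.toReal)⁻¹) * (ENNReal.ofReal ((4 * 4 ^ M)⁻¹) * ENNReal.ofReal V.toReal) *
              w1 M (z - y0) := by rw [e2]
          _ = _ := by rw [← e1]; ring
    _ ≤ _ := by gcongr

theorem Wn_up (M : ℕ) : ∃ C : ℝ, 0 ≤ C ∧ ∀ y0 z : E3, Wn M y0 z ≤ ENNReal.ofReal C * w1 M (z - y0) := by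
  obtain ⟨C, hC, hPsi⟩ := Psi_decay (M + 4)
  obtain ⟨Cw, hCw, hw⟩ := lint_wt
  refine ⟨C * 6 ^ M * (Cw * 2 ^ 3), by positivity, fun y0 z => ?_⟩
  have key : ∀ y : E3, ‖Tri.Psi ((1/2 : ℝ) • (z - y))‖ₑ ^ 2 * w1 M (y - y0) ≤
      (ENNReal.ofReal (C * 6 ^ M) * w1 M (z - y0)) * wt 4 2 (z - y) := by
    intro y
    have e1 : ‖Tri.Psi ((1/2 : ℝ) • (z - y))‖ₑ ^ 2 ≤ ENNReal.ofReal (C * (((1 + ‖z - y‖ / 2) ^ (M + 4))⁻¹)) := by
      rw [← ofReal_norm, ← ENNReal.ofReal_pow (norm_nonneg _)]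
      apply ENNReal.ofReal_le_ofReal
      refine (hPsi _).trans (le_of_eq ?_)
      rw [norm_smul, Real.norm_of_nonneg (by norm_num)]
      congr 4
      ring
    refine (mul_le_mul' e1 le_rfl).trans ?_
    unfold w1 wt
    rw [← ENNReal.ofReal_mul (by positivity), ← ENNReal.ofReal_mul (by positivity), ← ENNReal.ofReal_mul (by
      have := n1_nonneg (z - y0); positivity)]
    apply ENNReal.ofReal_le_ofReal
    set a := n1 (z - y0)
    set b := n1 (y - y0)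
    set c := ‖z - y‖
    have ha : 0 ≤ a := n1_nonneg _
    have hb : 0 ≤ b := n1_nonneg _
    have hc : 0 ≤ c := norm_nonneg _
    have h1 : 1 + a ≤ (1 + c / 2) * 6 * (1 + b) := by
      have e : z - y0 = (z - y) + (y - y0) := by abel
      have h2 := one_n1_add (z - y) (y - y0)
      rw [← e] at h2
      have h3 := n1_le (z - y)
      have h4 : 1 + n1 (z - y) ≤ (1 + c / 2) * 6 := by
        have : n1 (z - y) ≤ 3 * c := h3
        nlinarith
      exact h2.trans (by gcongr)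
    have h2 : (1 + a) ^ M ≤ 6 ^ M * ((1 + c / 2) ^ M * (1 + b) ^ M) := by
      calc (1 + a) ^ M ≤ ((1 + c / 2) * 6 * (1 + b)) ^ M := by gcongr
        _ = _ := by rw [mul_pow, mul_pow]; ring
    have h3 : ((1 + c / 2) ^ M)⁻¹ * ((1 + b) ^ M)⁻¹ ≤ 6 ^ M * ((1 + a) ^ M)⁻¹ := by
      rw [← mul_inv, ← div_eq_mul_inv, le_div_iff₀ (by positivity), inv_mul_le_iff₀ (by positivity)]
      linarith
    calc C * ((1 + c / 2) ^ (M + 4))⁻¹ * ((1 + b) ^ M)⁻¹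
        = C * (((1 + c / 2) ^ M)⁻¹ * ((1 + b) ^ M)⁻¹) * ((1 + c / 2) ^ 4)⁻¹ := by
          rw [pow_add, mul_inv]; ring
      _ ≤ C * (6 ^ M * ((1 + a) ^ M)⁻¹) * ((1 + c / 2) ^ 4)⁻¹ := by gcongr
      _ = _ := by ring
  unfold Wn
  calc _ ≤ ∫⁻ y, (ENNReal.ofReal (C * 6 ^ M) * w1 M (z - y0)) * wt 4 2 (z - y) := lintegral_mono key
    _ = (ENNReal.ofReal (C * 6 ^ M) * w1 M (z - y0)) * ∫⁻ y, wt 4 2 (z - y) := by
        rw [lintegral_const_mul]
        exact (measurable_wt 4 2).comp (measurable_const.sub measurable_id)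
    _ ≤ (ENNReal.ofReal (C * 6 ^ M) * w1 M (z - y0)) * ENNReal.ofReal (Cw * 2 ^ 3) := by
        rw [lintegral_sub_left_eq_self (fun y => wt 4 2 y) z]
        gcongr
        exact hw 2 (by norm_num)
    _ = _ := by
        rw [ENNReal.ofReal_mul (p := C * 6 ^ M) (by positivity)]
        ring

open Classical in
/-- orthogonality with one window -/
theorem win {ι : Type} (S : Finset ι) (g : ι → E3 → ℂ) (m : ℕ) (hg : ∀ k ∈ S, Integrable (g k))
    (hm : ∀ k ∈ S, ∀ J ⊆ S, (∀ l ∈ J, ∃ ξ η, g k ξ ≠ 0 ∧ g l η ≠ 0 ∧ ‖ξ - η‖ ≤ 1) → J.card ≤ m) (y : E3) :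
    ∫⁻ z, ‖∑ k ∈ S, 𝓕⁻ (g k) z‖ₑ ^ 2 * ‖Tri.Psi ((1/2 : ℝ) • (z - y))‖ₑ ^ 2 ≤
      m * ∑ k ∈ S, ∫⁻ z, ‖𝓕⁻ (g k) z‖ₑ ^ 2 * ‖Tri.Psi ((1/2 : ℝ) • (z - y))‖ₑ ^ 2 := by
  set κ : ℝ := 1/2 with hκd
  have hκ : 0 < κ := by rw [hκd]; norm_num
  have hga : ∀ k ∈ S, Integrable (ga κ (g k) y) := fun k hk => integrable_ga hκ (hg k hk) y
  have hov : ∀ i ∈ S, (S.filter (fun j => ∃ ζ, ga κ (g i) y ζ ≠ 0 ∧ ga κ (g j) y ζ ≠ 0)).card ≤ m := by
    intro i hi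
    apply hm i hi _ (Finset.filter_subset _ _)
    intro j hj
    rw [Finset.mem_filter] at hj
    obtain ⟨hj, ζ, h1, h2⟩ := hj
    obtain ⟨t, t1, t2⟩ := ga_supp hκ h1
    obtain ⟨s, s1, s2⟩ := ga_supp hκ h2
    refine ⟨t, s, t1, s1, ?_⟩
    have e : t - s = -(ζ - t) + (ζ - s) := by abel
    rw [e]
    refine (norm_add_le _ _).trans ?_
    rw [norm_neg]
    have e2 : κ + κ = 1 := by rw [hκd]; norm_num
    exact (add_le_add t2 s2).trans e2.le
  set h : E3 → ℂ := fun ζ => ∑ k ∈ S, ga κ (g k) y ζ with hh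
  have hinv : ∀ z, 𝓕⁻ h z = Tri.Psi (κ • (z - y)) * ∑ k ∈ S, 𝓕⁻ (g k) z := by
    intro z
    have e1 : 𝓕⁻ h z = ∑ k ∈ S, 𝓕⁻ (ga κ (g k) y) z := by
      rw [inv_eq]
      simp_rw [inv_eq, hh, Finset.mul_sum]
      rw [integral_finset_sum]
      intro k hk
      have := (hga k hk)
      refine this.bdd_mul (c := 1) ?_ ?_
      · exact (continuous_ec.comp (by fun_prop)).aestronglyMeasurable
      · filter_upwards with v
        rw [norm_ec]
    rw [e1, Finset.mul_sum]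
    refine Finset.sum_congr rfl fun k hk => ?_
    exact inv_ga hκ (hg k hk) y z
  have hint : Integrable h := integrable_finset_sum _ hga
  have hcont : Continuous h := continuous_finset_sum _ fun k hk => continuous_ga (hg k hk) y
  calc ∫⁻ z, ‖∑ k ∈ S, 𝓕⁻ (g k) z‖ₑ ^ 2 * ‖Tri.Psi (κ • (z - y))‖ₑ ^ 2
      = ∫⁻ z, ‖𝓕⁻ h z‖ₑ ^ 2 := by
        refine lintegral_congr fun z => ?_
        rw [hinv, enorm_mul, mul_pow, mul_comm]
    _ ≤ ∫⁻ ζ, ‖h ζ‖ₑ ^ 2 := lintegral_sq_inv_le hint hcont.measurable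
    _ ≤ ∫⁻ ζ, (m:ℝ≥0∞) * ∑ k ∈ S, ‖ga κ (g k) y ζ‖ₑ ^ 2 :=
        lintegral_mono fun ζ => Vale.Agent.P106.G.overlap_pt S (fun k => ga κ (g k) y) m hov ζ
    _ = (m:ℝ≥0∞) * ∑ k ∈ S, ∫⁻ ζ, ‖ga κ (g k) y ζ‖ₑ ^ 2 := by
        rw [lintegral_const_mul' _ _ (ENNReal.natCast_ne_top _), lintegral_finset_sum']
        intro k hk
        exact ((continuous_ga (hg k hk) y).measurable.enorm.pow_const 2).aemeasurable
    _ = _ := by
        congr 1
        refine Finset.sum_congr rfl fun k hk => ?_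
        rw [plancherel_inv (hga k hk) (continuous_ga (hg k hk) y) (integrable_inv_ga hκ (hg k hk) y)]
        refine lintegral_congr fun z => ?_
        rw [inv_ga hκ (hg k hk), enorm_mul, mul_pow, mul_comm]

theorem measurable_P : Measurable fun p : E3 × E3 => ‖Tri.Psi ((1/2 : ℝ) • (p.1 - p.2))‖ₑ ^ 2 := by
  have h1 : Continuous fun p : E3 × E3 => Tri.Psi ((1/2 : ℝ) • (p.1 - p.2)) :=
    Tri.Psi.continuous.comp (by fun_prop)
  exact h1.measurable.enorm.pow_const 2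

theorem measurable_Py (y : E3) : Measurable fun z : E3 => ‖Tri.Psi ((1/2 : ℝ) • (z - y))‖ₑ ^ 2 := by
  have h1 : Continuous fun z : E3 => Tri.Psi ((1/2 : ℝ) • (z - y)) := Tri.Psi.continuous.comp (by fun_prop)
  exact h1.measurable.enorm.pow_const 2

theorem measurable_Pz (z : E3) : Measurable fun y : E3 => ‖Tri.Psi ((1/2 : ℝ) • (z - y))‖ₑ ^ 2 := by
  have h1 : Continuous fun y : E3 => Tri.Psi ((1/2 : ℝ) • (z - y)) := Tri.Psi.continuous.comp (by fun_prop)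
  exact h1.measurable.enorm.pow_const 2

theorem measurable_wy (M : ℕ) (y0 : E3) : Measurable fun y : E3 => w1 M (y - y0) :=
  (measurable_w1 M).comp (measurable_id.sub_const y0)

/-- energy in the window -/
noncomputable def En (f : E3 → ℂ) (y : E3) : ℝ≥0∞ := ∫⁻ z, ‖f z‖ₑ ^ 2 * ‖Tri.Psi ((1/2 : ℝ) • (z - y))‖ₑ ^ 2

theorem measurable_En {f : E3 → ℂ} (hf : Measurable f) : Measurable (En f) := by
  have h2 : Measurable fun p : E3 × E3 => ‖f p.1‖ₑ ^ 2 * ‖Tri.Psi ((1/2 : ℝ) • (p.1 - p.2))‖ₑ ^ 2 :=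
    ((hf.comp measurable_fst).enorm.pow_const 2).mul measurable_P
  exact h2.lintegral_prod_left'

theorem av {M : ℕ} {y0 : E3} {f : E3 → ℂ} (hf : Measurable f) : ∫⁻ z, ‖f z‖ₑ ^ 2 * Wn M y0 z =
    ∫⁻ y, En f y * w1 M (y - y0) := by
  have hP := measurable_P
  have hw1 : Measurable fun p : E3 × E3 => w1 M (p.2 - y0) :=
    (measurable_w1 M).comp (measurable_snd.sub_const y0)
  have hf1 : Measurable fun p : E3 × E3 => ‖f p.1‖ₑ ^ 2 := (hf.comp measurable_fst).enorm.pow_const 2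
  have hall : Measurable fun p : E3 × E3 => ‖f p.1‖ₑ ^ 2 *
      (‖Tri.Psi ((1/2 : ℝ) • (p.1 - p.2))‖ₑ ^ 2 * w1 M (p.2 - y0)) := hf1.mul (hP.mul hw1)
  have e1 : ∀ z, ‖f z‖ₑ ^ 2 * Wn M y0 z = ∫⁻ y, ‖f z‖ₑ ^ 2 * (‖Tri.Psi ((1/2 : ℝ) • (z - y))‖ₑ ^ 2 * w1 M (y - y0)) := by
    intro z
    unfold Wn
    rw [lintegral_const_mul]
    exact (measurable_Pz z).mul (measurable_wy M y0)
  simp_rw [e1]
  rw [lintegral_lintegral_swap]
  · refine lintegral_congr fun y => ?_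
    unfold En
    rw [← lintegral_mul_const]
    · refine lintegral_congr fun z => ?_
      ring
    · exact (hf.enorm.pow_const 2).mul (measurable_Py y)
  · exact hall.aemeasurable

/-- **orthogonality with the weight of the unit box** -/
theorem ort1 (M : ℕ) : ∃ C : ℝ, 0 ≤ C ∧ ∀ (ι : Type) (S : Finset ι) (g : ι → E3 → ℂ) (m : ℕ),
    (∀ k ∈ S, Integrable (g k)) →
    (∀ k ∈ S, ∀ J ⊆ S, (∀ l ∈ J, ∃ ξ η, g k ξ ≠ 0 ∧ g l η ≠ 0 ∧ ‖ξ - η‖ ≤ 1) → J.card ≤ m) →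
    ∀ y0 : E3, ∫⁻ z, ‖∑ k ∈ S, 𝓕⁻ (g k) z‖ₑ ^ 2 * w1 M (z - y0) ≤
      ENNReal.ofReal (C * m) * ∑ k ∈ S, ∫⁻ z, ‖𝓕⁻ (g k) z‖ₑ ^ 2 * w1 M (z - y0) := by
  obtain ⟨c, hc, hlow⟩ := Wn_low M
  obtain ⟨C, hC, hup⟩ := Wn_up M
  refine ⟨c * C, by positivity, ?_⟩
  intro ι S g m hg hm y0
  have hmF : ∀ k ∈ S, Measurable fun z => 𝓕⁻ (g k) z := fun k hk => (continuous_inv (hg k hk)).measurable
  have hmS : Measurable fun z => ∑ k ∈ S, 𝓕⁻ (g k) z := Finset.measurable_fun_sum S hmF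
  have s1 : ∫⁻ z, ‖∑ k ∈ S, 𝓕⁻ (g k) z‖ₑ ^ 2 * w1 M (z - y0) ≤
      ENNReal.ofReal c * ∫⁻ y, En (fun z => ∑ k ∈ S, 𝓕⁻ (g k) z) y * w1 M (y - y0) := by
    rw [← av hmS, ← lintegral_const_mul' _ _ ENNReal.ofReal_ne_top]
    refine lintegral_mono fun z => ?_
    calc _ ≤ ‖∑ k ∈ S, 𝓕⁻ (g k) z‖ₑ ^ 2 * (ENNReal.ofReal c * Wn M y0 z) := mul_le_mul' le_rfl (hlow y0 z)
      _ = _ := by ring
  have s2 : ∫⁻ y, En (fun z => ∑ k ∈ S, 𝓕⁻ (g k) z) y * w1 M (y - y0) ≤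
      m * ∑ k ∈ S, ∫⁻ y, En (fun z => 𝓕⁻ (g k) z) y * w1 M (y - y0) := by
    have e1 : m * ∑ k ∈ S, ∫⁻ y, En (fun z => 𝓕⁻ (g k) z) y * w1 M (y - y0) =
        ∫⁻ y, (m * ∑ k ∈ S, En (fun z => 𝓕⁻ (g k) z) y) * w1 M (y - y0) := by
      have e2 : ∀ y, (m * ∑ k ∈ S, En (fun z => 𝓕⁻ (g k) z) y) * w1 M (y - y0) =
          (m : ℝ≥0∞) * ∑ k ∈ S, En (fun z => 𝓕⁻ (g k) z) y * w1 M (y - y0) := by
        intro y
        rw [mul_assoc, Finset.sum_mul]
      simp_rw [e2]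
      rw [lintegral_const_mul' _ _ (ENNReal.natCast_ne_top _), lintegral_finset_sum']
      intro k hk
      exact ((measurable_En (hmF k hk)).mul ((measurable_w1 M).comp (measurable_id.sub_const y0))).aemeasurable
    rw [e1]
    refine lintegral_mono fun y => ?_
    exact mul_le_mul' (win S g m hg hm y) le_rfl
  have s3 : ∀ k ∈ S, ∫⁻ y, En (fun z => 𝓕⁻ (g k) z) y * w1 M (y - y0) ≤
      ENNReal.ofReal C * ∫⁻ z, ‖𝓕⁻ (g k) z‖ₑ ^ 2 * w1 M (z - y0) := by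
    intro k hk
    rw [← av (hmF k hk), ← lintegral_const_mul' _ _ ENNReal.ofReal_ne_top]
    refine lintegral_mono fun z => ?_
    calc _ ≤ ‖𝓕⁻ (g k) z‖ₑ ^ 2 * (ENNReal.ofReal C * w1 M (z - y0)) := mul_le_mul' le_rfl (hup y0 z)
      _ = _ := by ring
  refine s1.trans ((mul_le_mul' le_rfl (s2.trans (mul_le_mul' le_rfl (Finset.sum_le_sum s3)))).trans (le_of_eq ?_))
  rw [← Finset.mul_sum, ENNReal.ofReal_mul (by positivity), ENNReal.ofReal_mul hc.le, ENNReal.ofReal_natCast]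
  ring

end Vale.Agent.P122.H404
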